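import Vale.Agent.P197.Main

/-! Saxl's conjecture: the tensor square of the staircase irreducible contains every irreducible. -/

namespace Vale.Agent.Results.P197.Saxl

open Vale.Agent.P197

theorem result : ∀ m : ℕ, 1 ≤ m → ∀ ν : (m * (m + 1) / 2).Partition,
    0 < kronecker (staircase m) (staircase m) ν :=
  fun m _ ν => kronecker_staircase_pos m ν

end Vale.Agent.Results.P197.Saxl
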